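import Vale.Agent.P321.R2.H613.Good6

/-! # Base and step of the iteration, second pass (the induction step is a hypothesis here) -/

namespace Vale.Agent.P321.R3.H175

open Complex Finset Vale.Agent.P321.UB Vale.Agent.P321.R2.H613

/-- The state of the iteration for the pair `x, x'` with first difference `i1`. -/
def Good5 (x x' : List Bool) (i1 : ℕ) (r κ D : ℝ) : Prop :=
  ∃ τ : List Bool → ℂ, (∀ y, (starRingEnd ℂ) (τ y) = τ y) ∧ IsTest x.length r 1 τ ∧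
    ∃ s : ℂ, s.re = κ ∧ |s.im| ≤ 5 * κ ∧
      Real.exp (-(D * min 1 (1.26 - |s.im| / (4 * κ)))) ≤
        ‖NN x.length i1 (sq x τ) (sq x' τ) s‖

/-- The induction step, as a statement. -/
def Step5Stmt : Prop :=
  ∀ {n i1 : ℕ} {f f' : ℕ → ℂ} {D κ0 κ : ℝ} {s0 : ℂ}, i1 ≤ n →
    (∀ i, (starRingEnd ℂ) (f i) = f i) → (∀ i, (starRingEnd ℂ) (f' i) = f' i) →
    10 ^ 6 ≤ D → (∀ i ≤ n, ‖f i‖ ≤ 1) → (∀ i ≤ n, ‖f' i‖ ≤ 1) →
    (∀ i < i1, f i = f' i) → (n : ℝ) + 1 ≤ Real.exp (D / 10 ^ 5) →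
    Real.exp (-(D / 10 ^ 5)) ≤ κ → 10 ^ 11 * κ ≤ κ0 → κ0 ≤ 1 / 10 ^ 16 → s0.re = κ0 →
    |s0.im| ≤ 5 * κ0 →
    Real.exp (-(D * min 1 (1.26 - |s0.im| / (4 * κ0)))) ≤ ‖NN n i1 f f' s0‖ →
    ∃ g g' F F' : Fin 3 → ℕ → ℂ, (∀ m, Simple6 f f' (g m) (g' m)) ∧
      (∀ m, Derived κ (210 * κ0) (g m) (g' m) (F m) (F' m)) ∧
      ∃ s : ℂ, s.re = 300000 * κ ∧ |s.im| ≤ 1500000 * κ ∧
        Real.exp (-(10.55 * D * min 1 (1.26 - |s.im| / (1200000 * κ)))) ≤
          ‖NN n i1 (fun i => F 0 i * F 1 i * F 2 i) (fun i => F' 0 i * F' 1 i * F' 2 i) s‖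

theorem good_base5 {x x' : List Bool} {i1 : ℕ}
    (hi : i1 ≤ x.length) (hd : ∀ r : ℝ, 0 ≤ r → ‖sq x (tau0 r) i1 - sq x' (tau0 r) i1‖ = r)
    {r D : ℝ} (hr : 0 < r) (hr1 : r ≤ 1)
    (hD : (10 ^ 18 / r) * Real.log (10 ^ 18 / r) ≤ D) : Good5 x x' i1 r (r / 10 ^ 16) D := by
  set κ0 : ℝ := r / 10 ^ 16 with hκ0
  have hκpos : 0 < κ0 := by positivity
  have hκle : κ0 ≤ 1 / 10 := by rw [hκ0]; linarith
  set M : ℕ := ⌈Real.pi / κ0⌉₊ with hM
  have hMle : Real.pi / κ0 ≤ M := Nat.le_ceil _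
  have hMlt : (M : ℝ) < Real.pi / κ0 + 1 := Nat.ceil_lt_add_one (by positivity)
  obtain ⟨s, hs1, hs2, hs3⟩ := base_case (m := x.length + 1 - i1)
    (a := dif i1 (sq x (tau0 r)) (sq x' (tau0 r))) (κ0 := κ0) (π0 := r) (M := M) (by omega)
    hκpos hκle (fun k _ => by
      simp only [dif, UB.sq]
      exact norm_tau0_sub_le hr.le hr1 _ _)
    (by simp only [dif, add_zero]; exact (hd r hr.le).ge) hr hr1 hMle
  refine ⟨tau0 r, fun y => ?_, isTest_tau0, s, hs1, ?_, ?_⟩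
  · exact Complex.conj_eq_iff_im.2 (norm_tau0_le hr.le hr1 y).2.2
  · exact hs2.trans (by linarith)
  · refine le_trans ?_ hs3
    -- the minimum is one
    have hmin : min 1 (1.26 - |s.im| / (4 * κ0)) = 1 := by
      apply min_eq_left
      have h1 : |s.im| / (4 * κ0) ≤ 0.25 := by
        rw [div_le_iff₀ (by positivity)]
        linarith
      linarith
    rw [hmin, mul_one]
    -- numerics
    have h1r : 1 ≤ 1 / r := by rw [le_div_iff₀ hr]; linarith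
    have hM2 : (M : ℝ) ≤ 10 ^ 17 / r := by
      have e1 : Real.pi / κ0 = 10 ^ 16 * Real.pi / r := by
        rw [hκ0]; field_simp
      have e2 : 10 ^ 16 * Real.pi / r ≤ 4 * 10 ^ 16 / r := by
        apply div_le_div_of_nonneg_right _ hr.le
        linarith [Real.pi_le_four]
      have e3 : (1 : ℝ) ≤ 6 * 10 ^ 16 / r := by
        rw [le_div_iff₀ hr]; linarith
      have e4 : 4 * 10 ^ 16 / r + 6 * 10 ^ 16 / r = 10 ^ 17 / r := by ring
      rw [e1] at hMlt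
      linarith
    have hx : 0 < r * (κ0 / 2) := by positivity
    have hx1 : r * (κ0 / 2) = r ^ 2 / (2 * 10 ^ 16) := by rw [hκ0]; ring
    have hlog0 : 0 ≤ Real.log (10 ^ 18 / r) := Real.log_nonneg (by
      rw [le_div_iff₀ hr]; linarith)
    have hlog : -(2 * Real.log (10 ^ 18 / r)) ≤ Real.log (r * (κ0 / 2)) := by
      rw [hx1]
      have e5 : -(2 * Real.log (10 ^ 18 / r)) = Real.log ((r / 10 ^ 18) ^ 2) := by
        rw [Real.log_pow]
        push_cast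
        rw [show Real.log (10 ^ 18 / r) = - Real.log (r / 10 ^ 18) by
          rw [← Real.log_inv, inv_div]]
        ring
      rw [e5]
      apply Real.log_le_log (by positivity)
      rw [div_pow]
      apply div_le_div_of_nonneg_left (by positivity) (by norm_num) (by norm_num)
    rw [← Real.exp_log hx, ← Real.exp_nat_mul]
    apply Real.exp_le_exp.mpr
    have h3 : (M : ℝ) * (2 * Real.log (10 ^ 18 / r)) ≤ D := by
      calc (M : ℝ) * (2 * Real.log (10 ^ 18 / r)) ≤ 10 ^ 17 / r * (2 * Real.log (10 ^ 18 / r)) :=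
            mul_le_mul_of_nonneg_right hM2 (by linarith)
        _ = 2 * 10 ^ 17 / r * Real.log (10 ^ 18 / r) := by ring
        _ ≤ 10 ^ 18 / r * Real.log (10 ^ 18 / r) := by
            apply mul_le_mul_of_nonneg_right _ hlog0
            apply div_le_div_of_nonneg_right _ hr.le
            norm_num
        _ ≤ D := hD
    have h4 : (M : ℝ) * (-(2 * Real.log (10 ^ 18 / r))) ≤ M * Real.log (r * (κ0 / 2)) :=
      mul_le_mul_of_nonneg_left hlog (Nat.cast_nonneg _)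
    linarith

theorem exists_string_of_derived5 {x x' : List Bool} (hl : x.length = x'.length)
    {G : List Bool → ℂ} {r κ κ0 : ℝ} (hr : 0 < r) (hr1 : r ≤ 1) (hκ : 0 < κ) (hκ1 : κ ≤ 1)
    (hκκ : κ ≤ 105 * κ0) (h10 : 10 ^ 5 * κ0 ^ 2 ≤ r * κ) (ht : IsTest x.length r 1 G)
    {F F' : ℕ → ℂ} (h : Derived κ (210 * κ0) (sq x G) (sq x' G) F F') :
    ∃ H : List Bool → ℂ, IsTest x.length r (((x.length : ℝ) + 1) / r) H ∧
      (∀ i ≤ x.length, sq x H i = F i) ∧ (∀ i ≤ x.length, sq x' H i = F' i) := by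
  have hn0 : (0 : ℝ) ≤ x.length := Nat.cast_nonneg _
  rcases h with ⟨rfl, rfl⟩ | ⟨y, hy, rfl, rfl⟩
  · refine ⟨G, ht.mono_bound ?_, fun i _ => rfl, fun i _ => rfl⟩
    rw [le_div_iff₀ hr]
    linarith
  · refine ⟨Sz (cexp (-((κ : ℂ) + y * I))) G, ?_, fun i hi => sq_Sz x _ G i hi,
      fun i hi => sq_Sz x' _ G i (hl ▸ hi)⟩
    have hsq : 9 * (105 * κ0) ^ 2 ≤ r * κ := by
      have : 0 ≤ κ0 ^ 2 := sq_nonneg _
      linarith
    have h1 := IsTest.sz hr zero_le_one (disc_condition (κ0 := 105 * κ0) hκ hκ1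
      (by linarith) hκκ hsq hr) ht
    refine h1.mono_bound ?_
    rw [mul_one]
    apply div_le_div_of_nonneg_right _ hr.le
    linarith

theorem good_step5_of (h5 : Step5Stmt) {x x' : List Bool} {i1 : ℕ}
    (hl : x.length = x'.length)
    (hi : i1 ≤ x.length) (heq : ∀ τ, ∀ i < i1, sq x τ i = sq x' τ i)
    {r κ D : ℝ} (hr : 0 < r) (hr3 : 3 * r ≤ 1) (hκ : 0 < κ) (hκr : 10 ^ 16 * κ ≤ r)
    (hD : 10 ^ 6 ≤ D) (hn : (x.length : ℝ) + 1 ≤ Real.exp (D / 10 ^ 5))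
    (hrl : 1 / r ≤ Real.exp (D / 10 ^ 5))
    (hκl : Real.exp (-(D / 10 ^ 5)) ≤ 10 ^ 5 * κ ^ 2 / r) (h : Good5 x x' i1 r κ D) :
    Good5 x x' i1 (3 * r) (3 * 10 ^ 10 * κ ^ 2 / r) (10.6 * D) := by
  obtain ⟨τ, hτ, ht, s, hs1, hs2, hs3⟩ := h
  set κ' : ℝ := 10 ^ 5 * κ ^ 2 / r with hκ'
  have hκ'pos : 0 < κ' := by positivity
  have hκκ : 10 ^ 11 * κ' ≤ κ := by
    rw [hκ']
    have : 10 ^ 11 * (10 ^ 5 * κ ^ 2 / r) = κ * (10 ^ 16 * κ) / r := by ring
    rw [this, div_le_iff₀ hr]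
    exact mul_le_mul_of_nonneg_left hκr hκ.le
  have hκ16 : κ ≤ 1 / 10 ^ 16 := by
    rw [le_div_iff₀ (by positivity)]
    linarith
  have hnorm : ∀ i ≤ x.length, ‖sq x τ i‖ ≤ 1 := fun i _ => by
    unfold UB.sq
    exact ht.norm_le hr.le (by linarith) _ (by rw [List.length_drop]; omega)
  have hnorm' : ∀ i ≤ x.length, ‖sq x' τ i‖ ≤ 1 := fun i _ => by
    unfold UB.sq
    exact ht.norm_le hr.le (by linarith) _ (by rw [List.length_drop]; omega)
  obtain ⟨g, g', F, F', hS, hDer, s', hs1', hs2', hs3'⟩ := h5 hi (f := sq x τ)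
    (f' := sq x' τ) (fun i => hτ _) (fun i => hτ _) hD hnorm hnorm' (heq τ) hn hκl hκκ hκ16
    hs1 hs2 hs3
  have h10 : 10 ^ 5 * κ ^ 2 ≤ r * κ' := by
    rw [hκ']
    have : r * (10 ^ 5 * κ ^ 2 / r) = 10 ^ 5 * κ ^ 2 := by field_simp
    rw [this]
  set B : ℝ := ((x.length : ℝ) + 1) / r with hB
  have hB0 : 0 < B := by positivity
  have hex : ∀ m, ∃ H : List Bool → ℂ, IsTest x.length r B H ∧
      (∀ i ≤ x.length, sq x H i = F m i) ∧ (∀ i ≤ x.length, sq x' H i = F' m i) := by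
    intro m
    obtain ⟨G, hG, hg, hg'⟩ := exists_string_of_simple6 ht (hS m)
    have hDm := hDer m
    rw [hg, hg'] at hDm
    have hκ1 : κ' ≤ 1 := by
      have : (1 : ℝ) / 10 ^ 16 ≤ 1 := by norm_num
      linarith
    exact exists_string_of_derived5 hl hr (by linarith) hκ'pos hκ1 (by linarith) h10
      hG hDm
  choose H hH hHx hHx' using hex
  have hT := IsTest.mul3 hr hr3 hB0.le (hH 0) (hH 1) (hH 2)
  set ℓ := D / 10 ^ 5 with hℓ
  have hℓ10 : 10 ≤ ℓ := by rw [hℓ, le_div_iff₀ (by norm_num)]; linarith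
  have hDℓ : D = 10 ^ 5 * ℓ := by rw [hℓ]; ring
  have hBle : B ≤ Real.exp (2 * ℓ) := by
    calc B = ((x.length : ℝ) + 1) * (1 / r) := by rw [hB]; ring
      _ ≤ Real.exp ℓ * Real.exp ℓ := by gcongr
      _ = Real.exp (2 * ℓ) := by rw [← Real.exp_add]; congr 1; ring
  -- the tilt
  set m : ℝ := min 1 (1.26 - |s'.im| / (1200000 * κ')) with hm
  have hm0 : 0.01 ≤ m := by
    rw [hm]
    refine le_min (by norm_num) ?_
    have h1 : |s'.im| / (1200000 * κ') ≤ 1.25 := by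
      rw [div_le_iff₀ (by positivity)]
      linarith
    linarith
  have hB3 : 2 * B ^ 3 * Real.exp (-(10.6 * D * m)) ≤ Real.exp (-(10.55 * D * m)) := by
    have h2 : (2 : ℝ) ≤ Real.exp ℓ := by
      have := Real.add_one_le_exp ℓ; linarith
    have h3 : 0.01 * D ≤ D * m := by
      have : D * 0.01 ≤ D * m := mul_le_mul_of_nonneg_left hm0 (by linarith)
      linarith
    calc 2 * B ^ 3 * Real.exp (-(10.6 * D * m)) ≤ Real.exp ℓ * Real.exp (2 * ℓ) ^ 3 *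
          Real.exp (-(10.6 * D * m)) := by gcongr
      _ = Real.exp (7 * ℓ - 10.6 * D * m) := by
          rw [← Real.exp_nat_mul, ← Real.exp_add, ← Real.exp_add]; congr 1; push_cast; ring
      _ ≤ Real.exp (-(10.55 * D * m)) := by
          apply Real.exp_le_exp.2
          have h4 : 7 * ℓ ≤ 0.05 * (0.01 * D) := by
            rw [hDℓ]
            linarith
          have h5 : 0.05 * (0.01 * D) ≤ 0.05 * (D * m) := by linarith
          linarith
  obtain ⟨T, hT1, hT2, hT3⟩ := real_test (x := x) (x' := x') (i1 := i1) (s := s')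
    (E := Real.exp (-(10.6 * D * m))) (by positivity : 0 < B ^ 3) hT (by
      refine hB3.trans (hs3'.trans (le_of_eq ?_))
      congr 1
      refine NN_congr (fun i hi' => ?_) (fun i hi' => ?_) s'
      · rw [← hHx 0 i hi', ← hHx 1 i hi', ← hHx 2 i hi']
        rfl
      · rw [← hHx' 0 i hi', ← hHx' 1 i hi', ← hHx' 2 i hi']
        rfl)
  have hκeq : 3 * 10 ^ 10 * κ ^ 2 / r = 300000 * κ' := by rw [hκ']; ring
  rw [hκeq]
  refine ⟨T, hT1, hT2, s', hs1', ?_, ?_⟩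
  · refine hs2'.trans (le_of_eq ?_)
    ring
  · have e1 : (4 : ℝ) * (300000 * κ') = 1200000 * κ' := by ring
    rw [e1]
    exact hT3

end Vale.Agent.P321.R3.H175
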